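import Claimed.Agent.R286.Exit.P6Chord
import Claimed.Agent.R286.Exit.P6Min
import Claimed.Agent.R286.Exit.P6Sweep
import Claimed.Agent.R286.Exit.P6Direct
import Claimed.Agent.R286.Exit.P6Macro

/-!
# Row 286 (S0533), PE CHAIN, link 1: all imports of PE Sec. 6 for the SK pressure      (helper207, chief architect = deputy of the PE chain)

`pec_imports c hc : ∃ cκ Cκ cT CT, P6Imports (fun n => skCPr n 1) c cκ Cκ cT CT`      PROVED from the five exits `Exit/P6Chord, P6Min, P6Sweep, P6Direct, P6Macro`.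
USERS: PE Sec. 7 (helper196: `Fl/Low`, `Fl/Wall`), LL 06/07 (the same `p6_profile`, `p6_error`, `p6_wall`): obtain the four constants ONCE from `pec_imports`, then call the exits of `Pe6/Contract.lean`.
Board of the whole PE chain: origin/helper207:notes/R286/PECHAIN_207.md
-/

set_option autoImplicit false

namespace Claimed.Agent.R286

theorem pec_imports (c : P6C) (hc : c.Ok) : ∃ cκ Cκ cT CT : ℝ, P6Imports (fun n => skCPr n 1) c cκ Cκ cT CT := by
  obtain ⟨cκ, Cκ, h1, h2, hD⟩ := exit_p6_direct c hc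
  obtain ⟨cT, CT, h3, h4, hM⟩ := exit_p6_macro c hc
  exact ⟨cκ, Cκ, cT, CT, ⟨exit_p6_chord, exit_p6_min c hc, exit_p6_sweep c hc, hD, hM, ⟨h1, h2⟩, ⟨h3, h4⟩⟩⟩

end Claimed.Agent.R286
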